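import Vale.Agent.P267.H283.Facts2
import Vale.Agent.P267.H399.LBCurv
import Vale.Agent.P267.H662.KCanon

/-!
# `BlockC.CurvThm`: the curvature facts of block C (helper662)
-/

open scoped Manifold ContDiff ComplexConjugate

set_option linter.unusedSectionVars false

noncomputable section

namespace Vale.Agent.P267.H662

open Vale.Agent.P267.FL Vale.Agent.P267 Vale.Agent.P267.BlockC

theorem curvFacts (M : Type) [TopologicalSpace M] [ChartedSpace C2 M]
    [IsManifold 𝓘(ℂ, C2) ω M] : CurvFacts M where
  smooth L := L.L.curv_smooth
  closed L := L.L.curv_closed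
  real L := by
    intro x
    refine ⟨?_, fun i j => ?_⟩
    · change Complex.I * L.L.F20 x = conj (Complex.I * L.L.F02 x)
      rw [L.L.F20_eq_neg_conj, map_mul, Complex.conj_I]
      ring
    · change Complex.I * L.L.F11 x j i = -conj (Complex.I * L.L.F11 x i j)
      rw [L.L.F11_swap, map_mul, Complex.conj_I]
      ring
  canon K K' hK hK' := canon_exact hK hK'

/-- the input `CurvThm` of block C -/
theorem curvThm : CurvThm := by
  intro M _ _ _ _
  exact curvFacts M

end Vale.Agent.P267.H662
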